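import Mathlib
import Vale.Agent.Lib.P060.Defs

namespace Vale.Agent.Lib.P060

open Finset

lemma hasCliqueMinor_of_fintype {V ι : Type*} [Fintype ι] (G : SimpleGraph V) (B : ι → Set V)
    (h1 : ∀ i, (G.induce (B i)).Connected) (h2 : ∀ i j, i ≠ j → Disjoint (B i) (B j))
    (h3 : ∀ i j, i ≠ j → ∃ x ∈ B i, ∃ y ∈ B j, G.Adj x y) :
    HasCliqueMinor G (Fintype.card ι) := by
  let e := (Fintype.equivFin ι).symm
  exact ⟨fun i => B (e i), fun i => h1 _, fun i j hij => h2 _ _ (e.injective.ne hij),
    fun i j hij => h3 _ _ (e.injective.ne hij)⟩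

/-- a matching of the complement, as a finite set of ordered pairs -/
def IsCoMatching {V : Type*} (G : SimpleGraph V) (M : Finset (V × V)) : Prop :=
  (∀ p ∈ M, p.1 ≠ p.2 ∧ ¬ G.Adj p.1 p.2) ∧
  (∀ p ∈ M, ∀ q ∈ M, p ≠ q → p.1 ≠ q.1 ∧ p.1 ≠ q.2 ∧ p.2 ≠ q.1 ∧ p.2 ≠ q.2)

/-- `u v` is a dominating edge -/
def Dom {V : Type*} (G : SimpleGraph V) (u v : V) : Prop :=
  G.Adj u v ∧ ∀ w, w ≠ u → w ≠ v → G.Adj w u ∨ G.Adj w v

lemma Dom.symm {V : Type*} {G : SimpleGraph V} {u v : V} (h : Dom G u v) : Dom G v u :=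
  ⟨h.1.symm, fun w h1 h2 => (h.2 w h2 h1).symm⟩

section
set_option linter.unusedSectionVars false
variable {V : Type*} [Fintype V] [DecidableEq V] (G : SimpleGraph V)

open Classical in
/-- non-neighbours -/
noncomputable def NN (v : V) : Finset V := univ.filter (fun w => w ≠ v ∧ ¬ G.Adj v w)

lemma mem_NN {v w : V} : w ∈ NN G v ↔ w ≠ v ∧ ¬ G.Adj v w := by
  simp [NN]

lemma mem_NN_symm {v w : V} (h : w ∈ NN G v) : v ∈ NN G w := by
  rw [mem_NN] at h ⊢
  exact ⟨h.1.symm, fun h' => h.2 h'.symm⟩

open Classical in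
lemma card_not_dom_le (d : ℕ) (hd : ∀ v, (NN G v).card ≤ d) (u : V) :
    (univ.filter (fun v => v ≠ u ∧ ¬ Dom G u v)).card ≤ d ^ 2 := by
  have hsub : (univ.filter (fun v => v ≠ u ∧ ¬ Dom G u v)) ⊆
      (NN G u).biUnion (fun w => insert w ((NN G w).erase u)) := by
    intro v hv
    simp only [mem_filter, mem_univ, true_and] at hv
    obtain ⟨hvu, hnd⟩ := hv
    simp only [mem_biUnion]
    by_cases hadj : G.Adj u v
    · have : ∃ w, w ≠ u ∧ w ≠ v ∧ ¬ G.Adj w u ∧ ¬ G.Adj w v := by
        by_contra hcon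
        apply hnd
        refine ⟨hadj, fun w h1 h2 => ?_⟩
        by_contra h3
        apply hcon
        refine ⟨w, h1, h2, fun h => h3 (Or.inl h), fun h => h3 (Or.inr h)⟩
      obtain ⟨w, h1, h2, h3, h4⟩ := this
      refine ⟨w, (mem_NN G).2 ⟨h1, fun h => h3 h.symm⟩, ?_⟩
      apply mem_insert_of_mem
      rw [mem_erase]
      exact ⟨hvu, (mem_NN G).2 ⟨h2.symm, h4⟩⟩
    · exact ⟨v, (mem_NN G).2 ⟨hvu, hadj⟩, mem_insert_self _ _⟩
  calc (univ.filter (fun v => v ≠ u ∧ ¬ Dom G u v)).card
      ≤ ((NN G u).biUnion (fun w => insert w ((NN G w).erase u))).card := card_le_card hsub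
    _ ≤ ∑ w ∈ NN G u, (insert w ((NN G w).erase u)).card := card_biUnion_le
    _ ≤ ∑ _w ∈ NN G u, d := by
        apply sum_le_sum
        intro w hw
        have hu : u ∈ NN G w := mem_NN_symm G hw
        have h1 : ((NN G w).erase u).card = (NN G w).card - 1 := card_erase_of_mem hu
        have h2 : 0 < (NN G w).card := card_pos.2 ⟨u, hu⟩
        have h3 := card_insert_le w ((NN G w).erase u)
        have h4 := hd w
        omega
    _ = (NN G u).card * d := by simp
    _ ≤ d * d := Nat.mul_le_mul_right _ (hd u)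
    _ = d ^ 2 := by ring


/-- Hall step: re-pair the endpoints of a large co-matching into dominating edges. -/
lemma exists_repairing (d : ℕ) (hd : ∀ v, (NN G v).card ≤ d) (M : Finset (V × V))
    (hM : IsCoMatching G M) (hcard : 2 * d ^ 2 ≤ M.card) :
    ∃ σ : M → M, Function.Injective σ ∧ ∀ p : M, Dom G p.1.1 (σ p).1.2 := by
  classical
  have F1 : ∀ p q : M, p.1.1 = q.1.1 → p = q := by
    intro p q h
    by_contra hne
    exact (hM.2 p.1 p.2 q.1 q.2 (fun h' => hne (Subtype.ext h'))).1 h
  have F2 : ∀ p q : M, p.1.2 = q.1.2 → p = q := by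
    intro p q h
    by_contra hne
    exact (hM.2 p.1 p.2 q.1 q.2 (fun h' => hne (Subtype.ext h'))).2.2.2 h
  have F3 : ∀ p q : M, p.1.1 ≠ q.1.2 := by
    intro p q h
    by_cases hpq : p = q
    · subst hpq
      exact (hM.1 p.1 p.2).1 h
    · exact (hM.2 p.1 p.2 q.1 q.2 (fun h' => hpq (Subtype.ext h'))).2.1 h
  have hk : Fintype.card M = M.card := Fintype.card_coe M
  -- for each p few q are bad
  have hA : ∀ p : M, (univ.filter (fun q : M => ¬ Dom G p.1.1 q.1.2)).card ≤ d ^ 2 := by
    intro p
    refine le_trans ?_ (card_not_dom_le G d hd p.1.1)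
    apply card_le_card_of_injOn (fun q : M => q.1.2)
    · intro q hq
      simp only [coe_filter, mem_univ, true_and, Set.mem_ofPred_eq] at hq ⊢
      exact ⟨(F3 p q).symm, hq⟩
    · intro q _ q' _ h
      exact F2 q q' h
  have hB : ∀ q : M, (univ.filter (fun p : M => ¬ Dom G p.1.1 q.1.2)).card ≤ d ^ 2 := by
    intro q
    refine le_trans ?_ (card_not_dom_le G d hd q.1.2)
    apply card_le_card_of_injOn (fun p : M => p.1.1)
    · intro p hp
      simp only [coe_filter, mem_univ, true_and, Set.mem_ofPred_eq] at hp ⊢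
      exact ⟨F3 p q, fun h => hp h.symm⟩
    · intro p _ p' _ h
      exact F1 p p' h
  let t : M → Finset M := fun p => univ.filter (fun q : M => Dom G p.1.1 q.1.2)
  have ht : ∀ p : M, M.card - d ^ 2 ≤ (t p).card := by
    intro p
    have h1 := card_filter_add_card_filter_not (s := (univ : Finset M))
      (fun q : M => Dom G p.1.1 q.1.2)
    have h2 := hA p
    have h3 : (univ : Finset M).card = M.card := by rw [card_univ, hk]
    simp only [t]
    omega
  have hall : ∀ s : Finset M, s.card ≤ (s.biUnion t).card := by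
    intro s
    rcases s.eq_empty_or_nonempty with rfl | ⟨p, hp⟩
    · simp
    by_cases hs : s.card ≤ M.card - d ^ 2
    · calc s.card ≤ M.card - d ^ 2 := hs
        _ ≤ (t p).card := ht p
        _ ≤ (s.biUnion t).card := card_le_card (subset_biUnion_of_mem t hp)
    · have huniv : s.biUnion t = univ := by
        apply eq_univ_of_forall
        intro q
        have h1 : ¬ s ⊆ univ.filter (fun p : M => ¬ Dom G p.1.1 q.1.2) := by
          intro hsub
          have := card_le_card hsub
          have h2 := hB q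
          omega
        rw [not_subset] at h1
        obtain ⟨p', hp', hp''⟩ := h1
        simp only [mem_filter, mem_univ, true_and, not_not] at hp''
        exact mem_biUnion.2 ⟨p', hp', by simp [t, hp'']⟩
      rw [huniv]
      exact card_le_univ s
  obtain ⟨σ, hσ1, hσ2⟩ := (Finset.all_card_le_biUnion_card_iff_exists_injective t).1 hall
  refine ⟨σ, hσ1, fun p => ?_⟩
  have := hσ2 p
  simpa [t] using this


/-- existence of a co-matching of maximum size above a given one -/
lemma exists_max_coMatching (M : Finset (V × V)) (hM : IsCoMatching G M) :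
    ∃ M' : Finset (V × V), IsCoMatching G M' ∧ M.card ≤ M'.card ∧
      ∀ M'' : Finset (V × V), IsCoMatching G M'' → M''.card ≤ M'.card := by
  classical
  obtain ⟨M', hM'mem, hM'max⟩ := Finset.exists_max_image
    (univ.filter (fun M : Finset (V × V) => IsCoMatching G M)) card ⟨M, by simp [hM]⟩
  simp only [mem_filter, mem_univ, true_and] at hM'mem hM'max
  exact ⟨M', hM'mem, hM'max M hM, hM'max⟩

/-- vertices not covered by a maximum co-matching are pairwise adjacent -/
lemma adj_of_not_covered (M : Finset (V × V)) (hM : IsCoMatching G M)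
    (hmax : ∀ M'' : Finset (V × V), IsCoMatching G M'' → M''.card ≤ M.card)
    (x y : V) (hx : ¬ ∃ p ∈ M, x = p.1 ∨ x = p.2) (hy : ¬ ∃ p ∈ M, y = p.1 ∨ y = p.2)
    (hxy : x ≠ y) : G.Adj x y := by
  classical
  by_contra hadj
  push Not at hx hy
  have hnot : (x, y) ∉ M := fun h => (hx _ h).1 rfl
  have hnew : IsCoMatching G (insert (x, y) M) := by
    constructor
    · intro p hp
      rcases mem_insert.1 hp with rfl | hp
      · exact ⟨hxy, hadj⟩
      · exact hM.1 p hp
    · intro p hp q hq hpq
      rcases mem_insert.1 hp with rfl | hp <;> rcases mem_insert.1 hq with rfl | hq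
      · exact absurd rfl hpq
      · exact ⟨(hx q hq).1, (hx q hq).2, (hy q hq).1, (hy q hq).2⟩
      · exact ⟨(hx p hp).1.symm, (hy p hp).1.symm, (hx p hp).2.symm, (hy p hp).2.symm⟩
      · exact hM.2 p hp q hq hpq
  have := hmax _ hnew
  rw [card_insert_of_notMem hnot] at this
  omega

/-- Main theorem (finset form). -/
theorem dense_main (d : ℕ) (hd : ∀ v, (NN G v).card ≤ d) (M₀ : Finset (V × V))
    (hM₀ : IsCoMatching G M₀) (hcard₀ : 2 * d ^ 2 ≤ M₀.card) :
    ∃ t, G.Colorable t ∧ HasCliqueMinor G t := by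
  classical
  obtain ⟨M, hM, hle, hmax⟩ := exists_max_coMatching G M₀ hM₀
  have hcard : 2 * d ^ 2 ≤ M.card := le_trans hcard₀ hle
  obtain ⟨σ, hσinj, hσ⟩ := exists_repairing G d hd M hM hcard
  have F1 : ∀ p q : M, p.1.1 = q.1.1 → p = q := by
    intro p q h
    by_contra hne
    exact (hM.2 p.1 p.2 q.1 q.2 (fun h' => hne (Subtype.ext h'))).1 h
  have F2 : ∀ p q : M, p.1.2 = q.1.2 → p = q := by
    intro p q h
    by_contra hne
    exact (hM.2 p.1 p.2 q.1 q.2 (fun h' => hne (Subtype.ext h'))).2.2.2 h
  have F3 : ∀ p q : M, p.1.1 ≠ q.1.2 := by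
    intro p q h
    by_cases hpq : p = q
    · subst hpq
      exact (hM.1 p.1 p.2).1 h
    · exact (hM.2 p.1 p.2 q.1 q.2 (fun h' => hpq (Subtype.ext h'))).2.1 h
  let Cov : V → Prop := fun v => ∃ p ∈ M, v = p.1 ∨ v = p.2
  let ι := {x : V // ¬ Cov x} ⊕ M
  refine ⟨Fintype.card ι, ?_, ?_⟩
  · -- colouring
    have hch : ∀ v, Cov v → ∃ p : M, v = p.1.1 ∨ v = p.1.2 := by
      rintro v ⟨p, hp, h⟩
      exact ⟨⟨p, hp⟩, h⟩
    let c : V → ι := fun v =>
      if h : Cov v then Sum.inr (Classical.choose (hch v h)) else Sum.inl ⟨v, h⟩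
    have hvalid : ∀ {u v : V}, G.Adj u v → c u ≠ c v := by
      intro u v huv hc
      by_cases hu : Cov u <;> by_cases hv : Cov v
      · simp only [c, dif_pos hu, dif_pos hv] at hc
        have hc' := Sum.inr_injective hc
        have h1 := Classical.choose_spec (hch u hu)
        have h2 := Classical.choose_spec (hch v hv)
        rw [← hc'] at h2
        set p := Classical.choose (hch u hu)
        have hp := hM.1 p.1 p.2
        rcases h1 with h1 | h1 <;> rcases h2 with h2 | h2
        · exact G.ne_of_adj huv (h1.trans h2.symm)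
        · rw [h1, h2] at huv
          exact hp.2 huv
        · rw [h1, h2] at huv
          exact hp.2 huv.symm
        · exact G.ne_of_adj huv (h1.trans h2.symm)
      · simp [c, dif_pos hu, dif_neg hv] at hc
      · simp [c, dif_neg hu, dif_pos hv] at hc
      · simp only [c, dif_neg hu, dif_neg hv] at hc
        have hc' := Sum.inl_injective hc
        exact G.ne_of_adj huv (congrArg Subtype.val hc')
    exact (SimpleGraph.Coloring.mk c hvalid).colorable
  · -- minor
    let B : ι → Set V := Sum.elim (fun x => {x.1}) (fun p => {p.1.1, (σ p).1.2})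
    have hcov1 : ∀ p : M, Cov p.1.1 := fun p => ⟨p.1, p.2, Or.inl rfl⟩
    have hcov2 : ∀ p : M, Cov p.1.2 := fun p => ⟨p.1, p.2, Or.inr rfl⟩
    have hdisj : ∀ i j, i ≠ j → Disjoint (B i) (B j) := by
      intro i j hij
      rw [Set.disjoint_left]
      rcases i with x | p <;> rcases j with y | q
      · intro a ha hb
        simp only [B, Sum.elim_inl, Set.mem_singleton_iff] at ha hb
        exact hij (congrArg Sum.inl (Subtype.ext (ha.symm.trans hb)))
      · intro a ha hb
        simp only [B, Sum.elim_inl, Sum.elim_inr, Set.mem_singleton_iff,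
          Set.mem_insert_iff] at ha hb
        subst ha
        rcases hb with hb | hb
        · exact x.2 (hb ▸ hcov1 q)
        · exact x.2 (hb ▸ hcov2 (σ q))
      · intro a ha hb
        simp only [B, Sum.elim_inl, Sum.elim_inr, Set.mem_singleton_iff,
          Set.mem_insert_iff] at ha hb
        subst hb
        rcases ha with ha | ha
        · exact y.2 (ha ▸ hcov1 p)
        · exact y.2 (ha ▸ hcov2 (σ p))
      · intro a ha hb
        have hpq : p ≠ q := fun h => hij (congrArg Sum.inr h)
        simp only [B, Sum.elim_inr, Set.mem_singleton_iff, Set.mem_insert_iff] at ha hb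
        rcases ha with ha | ha <;> rcases hb with hb | hb
        · exact hpq (F1 p q (ha.symm.trans hb))
        · exact F3 p (σ q) (ha.symm.trans hb)
        · exact F3 q (σ p) (hb.symm.trans ha)
        · exact hpq (hσinj (F2 _ _ (ha.symm.trans hb)))
    have hne : ∀ i, ∃ a, a ∈ B i := by
      rintro (x | p)
      · exact ⟨x.1, by simp [B]⟩
      · exact ⟨p.1.1, by simp [B]⟩
    -- a dominating pair sees every other branch set
    have hdom : ∀ (p : M) (j : ι), Sum.inr p ≠ j →
        ∃ x ∈ B (Sum.inr p), ∃ y ∈ B j, G.Adj x y := by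
      intro p j hj
      obtain ⟨w, hw⟩ := hne j
      have hd' := Set.disjoint_left.1 (hdisj _ _ hj)
      have hw1 : w ≠ p.1.1 := by
        rintro rfl
        exact hd' (by simp [B]) hw
      have hw2 : w ≠ (σ p).1.2 := by
        rintro rfl
        exact hd' (by simp [B]) hw
      rcases (hσ p).2 w hw1 hw2 with h | h
      · exact ⟨p.1.1, by simp [B], w, hw, h.symm⟩
      · exact ⟨(σ p).1.2, by simp [B], w, hw, h.symm⟩
    apply hasCliqueMinor_of_fintype G B
    · rintro (x | p)
      · simp only [B, Sum.elim_inl]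
        have : Subsingleton ({x.1} : Set V) := (Set.subsingleton_coe _).2 Set.subsingleton_singleton
        have : Nonempty ({x.1} : Set V) := ⟨⟨x.1, rfl⟩⟩
        exact ⟨SimpleGraph.Preconnected.of_subsingleton⟩
      · simp only [B, Sum.elim_inr]
        exact SimpleGraph.induce_pair_connected_of_adj (hσ p).1
    · exact hdisj
    · intro i j hij
      rcases i with x | p
      · rcases j with y | q
        · refine ⟨x.1, by simp [B], y.1, by simp [B], ?_⟩
          apply adj_of_not_covered G M hM hmax x.1 y.1 x.2 y.2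
          intro h
          exact hij (congrArg Sum.inl (Subtype.ext h))
        · obtain ⟨a, ha, b, hb, hab⟩ := hdom q (Sum.inl x) hij.symm
          exact ⟨b, hb, a, ha, hab.symm⟩
      · exact hdom p j hij

end

end Vale.Agent.Lib.P060
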