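import Mathlib
import Vale.Agent.Lib.P060.Defs
import Vale.Agent.Lib.P060.Dense

namespace Vale.Agent.Lib.P060

open Finset

section
set_option linter.unusedSectionVars false
variable {V : Type*} [Fintype V] [DecidableEq V] (G : SimpleGraph V)

/-- If every vertex has at most `d` non-neighbours and at least `4 d ^ 3` vertices have a
non-neighbour, then a maximum matching of the complement has at least `2 d ^ 2` edges, so that
`dense_main` applies. -/
theorem minDeg_main (d : ℕ) (hd : ∀ v, (NN G v).card ≤ d)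
    (hm : 4 * d ^ 3 ≤ (univ.filter (fun v => (NN G v).Nonempty)).card) :
    ∃ t, G.Colorable t ∧ HasCliqueMinor G t := by
  classical
  obtain ⟨M, hM, -, hmax⟩ := exists_max_coMatching G ∅ ⟨by simp, by simp⟩
  obtain ⟨C, hCdef⟩ : ∃ C : Finset V, C = M.image Prod.fst ∪ M.image Prod.snd := ⟨_, rfl⟩
  have hC : C.card ≤ 2 * M.card := by
    calc C.card ≤ (M.image Prod.fst).card + (M.image Prod.snd).card := by
          rw [hCdef]
          exact card_union_le _ _
      _ ≤ M.card + M.card := add_le_add card_image_le card_image_le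
      _ = 2 * M.card := by ring
  have hfst : ∀ p ∈ M, p.1 ∈ C := fun p hp => by
    rw [hCdef]
    exact mem_union_left _ (mem_image_of_mem _ hp)
  have hsnd : ∀ p ∈ M, p.2 ∈ C := fun p hp => by
    rw [hCdef]
    exact mem_union_right _ (mem_image_of_mem _ hp)
  have hsub : univ.filter (fun v => (NN G v).Nonempty) ⊆ C.biUnion (fun c => NN G c) := by
    intro v hv
    rw [mem_filter] at hv
    obtain ⟨w, hw⟩ := hv.2
    rw [mem_biUnion]
    by_cases hvC : ∃ p ∈ M, v = p.1 ∨ v = p.2
    · obtain ⟨p, hp, h | h⟩ := hvC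
      · refine ⟨p.2, hsnd p hp, ?_⟩
        rw [mem_NN, h]
        exact ⟨(hM.1 p hp).1, fun h' => (hM.1 p hp).2 h'.symm⟩
      · refine ⟨p.1, hfst p hp, ?_⟩
        rw [mem_NN, h]
        exact ⟨(hM.1 p hp).1.symm, (hM.1 p hp).2⟩
    · have hwC : ∃ p ∈ M, w = p.1 ∨ w = p.2 := by
        by_contra hwC
        rw [mem_NN] at hw
        exact hw.2 (adj_of_not_covered G M hM hmax v w hvC hwC hw.1.symm)
      obtain ⟨p, hp, h | h⟩ := hwC
      · exact ⟨w, h ▸ hfst p hp, mem_NN_symm G hw⟩
      · exact ⟨w, h ▸ hsnd p hp, mem_NN_symm G hw⟩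
  have hcount : (univ.filter (fun v => (NN G v).Nonempty)).card ≤ 2 * M.card * d := by
    calc (univ.filter (fun v => (NN G v).Nonempty)).card
        ≤ (C.biUnion (fun c => NN G c)).card := card_le_card hsub
      _ ≤ ∑ c ∈ C, (NN G c).card := card_biUnion_le
      _ ≤ ∑ _c ∈ C, d := sum_le_sum (fun c _ => hd c)
      _ = C.card * d := by simp
      _ ≤ 2 * M.card * d := Nat.mul_le_mul_right _ hC
  have hcard : 2 * d ^ 2 ≤ M.card := by
    rcases Nat.eq_zero_or_pos d with rfl | hdpos
    · simp
    · have h1 : 4 * d ^ 3 ≤ 2 * M.card * d := le_trans hm hcount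
      have h2 : (2 * d) * (2 * d ^ 2) ≤ (2 * d) * M.card := by nlinarith
      exact Nat.le_of_mul_le_mul_left h2 (by positivity)
  exact dense_main G d hd M hM hcard

end

end Vale.Agent.Lib.P060
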